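import Vale.Agent.P329.Return

/-!
Generalized star height at most one for automata with a single return state, and for every language
recognised by a full symmetric group through a cycle and an adjacent transposition.
-/

open Vale.Agent.P329

namespace Vale.Agent.Results.P329.SingleReturnState

theorem result :
    (∀ (α σ : Type) [Fintype α] [Fintype σ] (δ : σ → α → σ) (P : σ) (r : σ → ℕ),
      (∀ x, x ≠ P → ∀ a, δ x a = x ∨ δ x a = P ∨ r x < r (δ x a)) →
      ∀ F : Set (σ → σ), HeightLE 1 {w : List α | (fun x => w.foldl δ x) ∈ F}) ∧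
    ∀ n : ℕ, ∃ g : Bool → Equiv.Perm (Fin (n + 2)),
      Subgroup.closure (Set.range g) = ⊤ ∧
      ∀ F : Set (Equiv.Perm (Fin (n + 2))), HeightLE 1 {w : List Bool | (w.map g).prod ∈ F} := by
  refine ⟨fun α σ _ _ δ P r hr F => map_height r hr F, fun n => ?_⟩
  let g : Bool → Equiv.Perm (Fin (n + 2)) := fun b =>
    if b then finRotate (n + 2) else Equiv.swap 0 1
  refine ⟨g, ?_, fun F => ?_⟩
  · have h := Equiv.Perm.closure_cycle_adjacent_swap (isCycle_finRotate (n := n))
      support_finRotate (0 : Fin (n + 2))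
    rw [finRotate_apply, zero_add] at h
    rw [← h]
    congr 1
    ext p
    simp [g, or_comm]
  let δ : Fin (n + 2) → Bool → Fin (n + 2) := fun x b => (g b)⁻¹ x
  have hfold : ∀ (w : List Bool) (x : Fin (n + 2)), w.foldl δ x = ((w.map g).prod)⁻¹ x := by
    intro w
    induction w with
    | nil => simp
    | cons b w ih => intro x; rw [List.foldl_cons, ih]; simp [δ, mul_inv_rev]
  have hr : ∀ x : Fin (n + 2), x ≠ 0 → ∀ b, δ x b = x ∨ δ x b = 0 ∨
      n + 2 - x.val < n + 2 - (δ x b).val := by
    intro x hx b
    have hpos : 0 < x.val := Nat.pos_of_ne_zero fun h => hx (Fin.ext h)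
    cases b
    · by_cases h1 : x = 1
      · exact Or.inr (Or.inl (by simp [δ, g, h1]))
      · exact Or.inl (by simp [δ, g, Equiv.swap_apply_of_ne_of_ne hx h1])
    · right; right
      have h2 : δ x true = x - 1 := by
        simp only [δ, g, if_true]
        rw [Equiv.Perm.inv_def, Equiv.symm_apply_eq, finRotate_apply, sub_add_cancel]
      rw [h2, Fin.val_sub_one_of_ne_zero hx]
      omega
  have e := map_height (α := Bool) (fun x : Fin (n + 2) => n + 2 - x.val) hr
    {f | ∃ p ∈ F, f = ⇑p⁻¹}
  refine Eq.mpr (congrArg (HeightLE 1) ?_) e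
  refine Set.ext fun w => ?_
  constructor
  · exact fun h => ⟨_, h, funext (hfold w)⟩
  · rintro ⟨p, hp, h⟩
    show (w.map g).prod ∈ F
    have h2 : (w.map g).prod = p :=
      inv_injective (Equiv.ext fun x => (hfold w x).symm.trans (congrFun h x))
    rwa [h2]

end Vale.Agent.Results.P329.SingleReturnState
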